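import Vale.Agent.P062.MathlibUsed

/-! The Snaky achievement game on the board ℤ × ℤ. -/

namespace Vale.Agent.P062

/-- A cell of the square grid, indexed by its lower-left corner. -/
abbrev Cell := ℤ × ℤ

/-- The hexomino Snaky. -/
def snaky : Finset Cell := {(0, 0), (1, 0), (2, 0), (3, 0), (3, 1), (4, 1)}

/-- `R` acts on `ℤ²` as one of the eight signed permutation matrices:
`(x, y) ↦ (± x, ± y)` or `(x, y) ↦ (± y, ± x)`. -/
def IsSignedPerm (R : Cell → Cell) : Prop :=
  ∃ a b : ℤ, (a = 1 ∨ a = -1) ∧ (b = 1 ∨ b = -1) ∧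
    ((∀ p : Cell, R p = (a * p.1, b * p.2)) ∨ (∀ p : Cell, R p = (a * p.2, b * p.1)))

/-- `T` is an allowed copy `t + R(S)` of Snaky. -/
def IsCopy (T : Finset Cell) : Prop :=
  ∃ (t : Cell) (R : Cell → Cell), IsSignedPerm R ∧ T = snaky.image (fun p => t + R p)

/-- A (deterministic) strategy for Maker: from the list of the claims made so far by Breaker,
in order, it gives Maker's next claim. -/
abbrev Strategy := List Cell → Cell

/-- Maker's claim number `n` (starting with `n = 0`) when Maker follows `σ` and Breaker claims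
`b 0`, `b 1`, `b 2`, …; Maker moves first, so before this claim Breaker has made the claims
`b 0, …, b (n - 1)`. -/
def makerClaim (σ : Strategy) (b : ℕ → Cell) (n : ℕ) : Cell := σ ((List.range n).map b)

/-- Maker's claim number `n` is a previously unclaimed cell. -/
def MakerLegal (σ : Strategy) (b : ℕ → Cell) (n : ℕ) : Prop :=
  ∀ k < n, makerClaim σ b n ≠ makerClaim σ b k ∧ makerClaim σ b n ≠ b k

/-- Breaker's claim number `n` (made right after Maker's claim number `n`) is a previously
unclaimed cell. -/
def BreakerLegal (σ : Strategy) (b : ℕ → Cell) (n : ℕ) : Prop :=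
  (∀ k ≤ n, b n ≠ makerClaim σ b k) ∧ (∀ k < n, b n ≠ b k)

/-- Maker has a winning strategy in the achievement game for Snaky on the initially empty board
`ℤ²` (Maker moves first, no handicap): against every legal play of Breaker, after finitely many
legal claims Maker owns every cell of some allowed copy. -/
def MakerHasWinningStrategy : Prop :=
  ∃ σ : Strategy, ∀ b : ℕ → Cell, (∀ n, BreakerLegal σ b n) →
    ∃ n : ℕ, (∀ k ≤ n, MakerLegal σ b k) ∧
      ∃ T : Finset Cell, IsCopy T ∧ ∀ c ∈ T, ∃ k ≤ n, makerClaim σ b k = c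

end Vale.Agent.P062
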