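import Vale.Agent.P062.Defs

/-! The variant in which Breaker's first claim does not share a side with Maker's first claim. -/

namespace Vale.Agent.P062

/-- The cells `c` and `d` share a side. -/
def Adjacent (c d : Cell) : Prop := |c.1 - d.1| + |c.2 - d.2| = 1

/-- On the initially empty board `ℤ²`, without handicap, Maker has a strategy that wins after
finitely many legal claims against every legal play of Breaker in which Breaker's first claim
does not share a side with Maker's first claim. -/
def MakerWinsUnlessAdjacent : Prop :=
  ∃ σ : Strategy, ∀ b : ℕ → Cell, (∀ n, BreakerLegal σ b n) →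
    ¬ Adjacent (b 0) (makerClaim σ b 0) →
      ∃ n : ℕ, (∀ k ≤ n, MakerLegal σ b k) ∧
        ∃ T : Finset Cell, IsCopy T ∧ ∀ c ∈ T, ∃ k ≤ n, makerClaim σ b k = c

end Vale.Agent.P062
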